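import Vale.Agent.P309.LearnerDefs
import Vale.Agent.P309.Bdl.B1

/-!
# P309: under a quadratic memory bound, `c d log (1/ε)` samples are necessary
-/

open P309

/-- For every `C > 0`: learners with `M ≤ C d²` bits which succeed at accuracy `ε` need at least
`c d log (1/ε)` samples, for all large `d` and all small `ε`. -/
theorem Vale.Agent.Results.P309.LowerBound.result (C : ℝ) (hC : 0 < C) :
    ∃ c : ℝ, 0 < c ∧ ∃ d₀ : ℕ, ∃ ε₀ : ℝ, 0 < ε₀ ∧ ε₀ < 1 ∧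
      ∀ d : ℕ, d₀ ≤ d → ∀ ε : ℝ, 0 < ε → ε ≤ ε₀ → ∀ M : ℕ, (M : ℝ) ≤ C * (d : ℝ) ^ 2 →
        ∀ (T : ℕ) (L : Learner (EuclideanSpace ℝ (Fin d)) (2 ^ M)), L.Succeeds T ε →
          c * d * Real.log (1 / ε) ≤ T := by
  obtain ⟨c, hc, d₀, -, ε₀, h0, h1, h⟩ := lower_bound C hC
  refine ⟨c, hc, d₀, ε₀, h0, h1, ?_⟩
  intro d hd ε hε hεe M hM T L hL
  refine h d hd ε hε hεe (2 ^ M) ?_ L T hL
  push_cast
  rw [← Real.rpow_natCast 2 M]
  exact Real.rpow_le_rpow_of_exponent_le (by norm_num) hM
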