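import Vale.Agent.P309.HorizonDefs
import Vale.Agent.P309.Bdl.B1

/-!
# P309: the least horizon when `M = O(d²)`
-/

open P309

/-- For every `C₀`: for `M ≤ C₀ d²` every learner which succeeds at accuracy `ε` reads at least
`c d log (1/ε)` samples; the least horizon is between `c d log (1/ε)` and `20 d log (1/ε)` if moreover
`M ≥ d log₂ (d/ε) + 11 d`, and it is infinite if `M ≤ (d - 1) log₂ (1/ε) - 4 d`. -/
theorem Vale.Agent.Results.P309.Tradeoff.result (C₀ : ℝ) (hC₀ : 0 < C₀) :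
    ∃ c : ℝ, 0 < c ∧ ∃ d₀ : ℕ, ∃ ε₀ : ℝ, 0 < ε₀ ∧ ε₀ < 1 ∧
      ∀ d : ℕ, d₀ ≤ d → ∀ ε : ℝ, 0 < ε → ε ≤ ε₀ → ∀ M : ℕ, (M : ℝ) ≤ C₀ * (d : ℝ) ^ 2 →
        (∀ (T : ℕ) (L : Learner (EuclideanSpace ℝ (Fin d)) (2 ^ M)), L.Succeeds T ε →
          c * d * Real.log (1 / ε) ≤ T) ∧
        (d * Real.logb 2 (d / ε) + 11 * d ≤ M → ∃ T : ℕ, leastHorizon d M ε = (T : ℕ∞) ∧
          c * d * Real.log (1 / ε) ≤ T ∧ (T : ℝ) ≤ 20 * d * Real.log (1 / ε)) ∧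
        ((M : ℝ) ≤ (d - 1) * Real.logb 2 (1 / ε) - 4 * d → leastHorizon d M ε = ⊤) := by
  obtain ⟨c, hc, d₀, hd₀, ε₀, h0, h1, h⟩ := lower_bound C₀ hC₀
  have h12 : (0 : ℝ) < min ε₀ (1 / 2) := lt_min h0 (by norm_num)
  refine ⟨c, hc, d₀, min ε₀ (1 / 2), h12, lt_of_le_of_lt (min_le_left _ _) h1, ?_⟩
  intro d hd ε hε hεe M hM
  have hε0 : ε ≤ ε₀ := hεe.trans (min_le_left _ _)
  have hε2 : ε ≤ 1 / 2 := hεe.trans (min_le_right _ _)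
  have hN : (((2 ^ M : ℕ) : ℕ) : ℝ) ≤ (2 : ℝ) ^ (C₀ * (d : ℝ) ^ 2) := by
    push_cast
    rw [← Real.rpow_natCast 2 M]
    exact Real.rpow_le_rpow_of_exponent_le (by norm_num) hM
  have hlow : ∀ (T : ℕ) (L : Learner (EuclideanSpace ℝ (Fin d)) (2 ^ M)), L.Succeeds T ε →
      c * d * Real.log (1 / ε) ≤ T := fun T L hL => h d hd ε hε hε0 (2 ^ M) hN L T hL
  refine ⟨hlow, ?_, Upper.leastHorizon_eq_top d ε (by omega) hε M⟩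
  intro hM'
  obtain ⟨T, hT, hT'⟩ := Upper.leastHorizon_le d ε (by omega) hε hε2 M hM'
  refine ⟨T, hT, ?_, hT'⟩
  obtain ⟨L, -, hL⟩ := leastHorizon_spec hT
  exact hlow T L hL
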